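import Vale.Agent.P300LG.Defs

/-!
# P300LD: horoballs and lines in the model ball
-/

open Set Filter Topology
open scoped ComplexConjugate
open Vale.Agent.P272.K (Cm)
open Vale.Agent.P300LG

noncomputable section

namespace Vale.Agent.P300LD

theorem cont_nq : Continuous nq := by
  unfold nq
  fun_prop

theorem nq_nonneg (z : Cm 2) : 0 ≤ nq z := add_nonneg (sq_nonneg _) (sq_nonneg _)

theorem isCompact_Bl (r : ℝ) : IsCompact (Bl r) :=
  (isCompact_closedBall (0 : Cm 2) (|r| + 1)).of_isClosed_subset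
    (isClosed_le cont_nq continuous_const) fun z hz => by
      have h : ‖z 0‖ ^ 2 + ‖z 1‖ ^ 2 ≤ r := hz
      have h1 := le_abs_self r
      rw [mem_closedBall_zero_iff, pi_norm_le_iff_of_nonneg (by positivity), Fin.forall_fin_two]
      constructor <;> nlinarith [sq_nonneg (‖z 0‖ - 1), sq_nonneg (‖z 1‖ - 1), sq_nonneg ‖z 0‖,
        sq_nonneg ‖z 1‖, abs_nonneg r]

theorem sq_cvx {a b : ℝ} (ha : 0 ≤ a) (hb : 0 ≤ b) (h : a + b = 1) (u v : ℂ) :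
    ‖a • u + b • v‖ ^ 2 ≤ a * ‖u‖ ^ 2 + b * ‖v‖ ^ 2 := by
  have h1 : ‖a • u + b • v‖ ≤ a * ‖u‖ + b * ‖v‖ := (norm_add_le _ _).trans (by
    rw [norm_smul, norm_smul, Real.norm_of_nonneg ha, Real.norm_of_nonneg hb])
  have h2 := pow_le_pow_left₀ (norm_nonneg _) h1 2
  obtain rfl : b = 1 - a := by linarith
  nlinarith [mul_nonneg (mul_nonneg ha hb) (sq_nonneg (‖u‖ - ‖v‖))]

theorem nq_cvx {a b : ℝ} (ha : 0 ≤ a) (hb : 0 ≤ b) (h : a + b = 1) (x y : Cm 2) :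
    nq (a • x + b • y) ≤ a * nq x + b * nq y := by
  have h0 := sq_cvx ha hb h (x 0) (y 0)
  have h1 := sq_cvx ha hb h (x 1) (y 1)
  simp only [nq, Pi.add_apply, Pi.smul_apply]
  linarith

theorem convex_Bl (r : ℝ) : Convex ℝ (Bl r) := fun x hx y hy a b ha hb h =>
  (nq_cvx ha hb h x y).trans (by
    have h1 : nq x ≤ r := hx
    have h2 : nq y ≤ r := hy
    have h3 : a * r + b * r = r := by rw [← add_mul, h, one_mul]
    linarith [mul_le_mul_of_nonneg_left h1 ha, mul_le_mul_of_nonneg_left h2 hb])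

/-- the function whose modulus defines the horoballs -/
def gg (ε : ℝ) (o X : Cm 2) : ℂ := ε - (X 0 * conj (o 0) + X 1 * conj (o 1))

/-- the level seen from `o` -/
def LL (ε : ℝ) (o X : Cm 2) : ℝ := ‖gg ε o X‖ ^ 2 / (ε - nq X)

variable {ε : ℝ} {o X : Cm 2}

theorem gg_re (ε : ℝ) (o X : Cm 2) : 2 * (gg ε o X).re = 2 * ε - nq X - nq o + nq (X - o) := by
  simp only [gg, nq, Complex.sq_norm, Complex.normSq_apply, Pi.sub_apply, Complex.sub_re,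
    Complex.sub_im, Complex.add_re, Complex.mul_re, Complex.conj_re, Complex.conj_im,
    Complex.ofReal_re]
  ring

theorem eq_of_nq {z : Cm 2} (h : nq z ≤ 0) : z = 0 := by
  have h0 : ‖z 0‖ ^ 2 = 0 := by nlinarith [sq_nonneg ‖z 0‖, sq_nonneg ‖z 1‖, show _ + _ ≤ _ from h]
  have h1 : ‖z 1‖ ^ 2 = 0 := by nlinarith [sq_nonneg ‖z 0‖, sq_nonneg ‖z 1‖, show _ + _ ≤ _ from h]
  exact funext (Fin.forall_fin_two.2 ⟨by simpa using h0, by simpa using h1⟩)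

theorem gg_zero (ho : nq o ≤ ε) (hX : nq X ≤ ε) (h : gg ε o X = 0) : X = o ∧ nq X = ε := by
  have h1 := gg_re ε o X
  have h2 := nq_nonneg (X - o)
  rw [h, Complex.zero_re] at h1
  exact ⟨sub_eq_zero.1 (eq_of_nq (by linarith)), by linarith⟩

theorem gg_le (ho : nq o ≤ ε) (hX : nq X ≤ ε) : ‖gg ε o X‖ ≤ 2 * ε := by
  have h0 := (nq_nonneg o).trans ho
  have h1 : ‖gg ε o X‖ ≤ ε + (‖X 0‖ * ‖o 0‖ + ‖X 1‖ * ‖o 1‖) :=
    (norm_sub_le _ _).trans (add_le_add (by rw [Complex.norm_real, Real.norm_of_nonneg h0])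
      ((norm_add_le _ _).trans (by simp only [norm_mul, Complex.norm_conj, le_refl])))
  unfold nq at ho hX
  nlinarith [sq_nonneg (‖X 0‖ - ‖o 0‖), sq_nonneg (‖X 1‖ - ‖o 1‖)]

theorem gg_aff {a b : ℝ} (h : a + b = 1) (o X Y : Cm 2) :
    gg ε o (a • X + b • Y) = a • gg ε o X + b • gg ε o Y := by
  obtain rfl : b = 1 - a := by linarith
  simp only [gg, Pi.add_apply, Pi.smul_apply, Complex.real_smul]
  push_cast
  ring

/-- a convex set which contains a point of model level `φ` has a low point of model level `ρ` -/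
theorem dip {φ δ : ℝ} (h0 : 0 ≤ φ) (hφ : φ < ε) (hδ : 0 < δ) : ∃ ρ₀ < ε, ∀ ρ, ρ₀ ≤ ρ → ρ < ε →
    ∀ o, nq o ≤ ε → ∀ l : Set (Cm 2), Convex ℝ l → ∀ F ∈ l, nq F ≤ φ →
      ∃ T ∈ l, nq T ≤ ρ ∧ ∀ X ∈ l, nq X < ε → ρ ≤ nq X → LL ε o T < max δ (LL ε o X) := by
  have he : 0 < ε := h0.trans_lt hφ
  have h1 : 0 < ε - φ := sub_pos.2 hφ
  obtain ⟨σ, s0, s1, s2⟩ : ∃ σ : ℝ, 0 < σ ∧ σ ≤ 1 ∧ σ * (2 * ε + 1) ^ 2 < δ * (ε - φ) := by
    refine ⟨min 1 (δ * (ε - φ) / (2 * ε + 1) ^ 2 / 2), by positivity, min_le_left _ _, ?_⟩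
    rw [← lt_div_iff₀ (by positivity)]
    exact (min_le_right _ _).trans_lt (half_lt_self (by positivity))
  refine ⟨ε - min (σ * (ε - φ)) (σ ^ 2 * (ε - φ) / (2 * ε) ^ 2 / 2), sub_lt_self _ (by positivity),
    fun ρ r1 r2 o ho l hl F hF h2 => ?_⟩
  have r3 : ε - ρ ≤ σ * (ε - φ) := by
    linarith [min_le_left (σ * (ε - φ)) (σ ^ 2 * (ε - φ) / (2 * ε) ^ 2 / 2)]
  have r4 : (ε - ρ) * (2 * ε) ^ 2 < σ ^ 2 * (ε - φ) := by
    rw [← lt_div_iff₀ (by positivity)]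
    linarith [min_le_right (σ * (ε - φ)) (σ ^ 2 * (ε - φ) / (2 * ε) ^ 2 / 2),
      half_lt_self (show 0 < σ ^ 2 * (ε - φ) / (2 * ε) ^ 2 by positivity)]
  have h3 := gg_le ho (h2.trans hφ.le)
  by_cases h : ∃ Y ∈ l, nq Y ≤ ε ∧ ‖gg ε o Y‖ < σ
  · obtain ⟨Y, y1, y2, y3⟩ := h
    have h4 : 0 ≤ 1 - σ := sub_nonneg.2 s1
    have h5 := nq_cvx s0.le h4 (add_sub_cancel _ _) F Y
    have h6 : σ * (ε - φ) ≤ ε - nq (σ • F + (1 - σ) • Y) := by
      nlinarith [mul_le_mul_of_nonneg_left h2 s0.le, mul_le_mul_of_nonneg_left y2 h4]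
    have h7 : ‖gg ε o (σ • F + (1 - σ) • Y)‖ ≤ σ * (2 * ε + 1) := by
      rw [gg_aff (add_sub_cancel _ _)]
      refine (norm_add_le _ _).trans ?_
      rw [norm_smul, norm_smul, Real.norm_of_nonneg s0.le, Real.norm_of_nonneg h4]
      nlinarith [mul_le_mul_of_nonneg_left h3 s0.le, mul_le_mul_of_nonneg_left y3.le h4,
        mul_pos s0 s0]
    refine ⟨_, hl hF y1 s0.le h4 (add_sub_cancel _ _), by linarith, fun X _ _ _ =>
      lt_max_of_lt_left ?_⟩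
    rw [LL, div_lt_iff₀ ((mul_pos s0 h1).trans_le h6)]
    have h8 := pow_le_pow_left₀ (norm_nonneg _) h7 2
    nlinarith [mul_le_mul_of_nonneg_left h6 hδ.le, mul_lt_mul_of_pos_left s2 s0]
  · refine ⟨F, hF, by nlinarith, fun X x1 x2 x3 => lt_max_of_lt_right ?_⟩
    have h4 : σ ≤ ‖gg ε o X‖ := not_lt.1 fun k => h ⟨X, x1, x2.le, k⟩
    have h5 := pow_le_pow_left₀ s0.le h4 2
    have h6 := pow_le_pow_left₀ (norm_nonneg _) h3 2
    rw [LL, LL, div_lt_div_iff₀ (by linarith) (sub_pos.2 x2)]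
    calc _ ≤ (2 * ε) ^ 2 * (ε - ρ) := mul_le_mul h6 (by linarith) (by linarith) (by positivity)
      _ < σ ^ 2 * (ε - φ) := by linarith
      _ ≤ _ := mul_le_mul h5 (by linarith) h1.le (by positivity)

variable {y2 : ℝ}

theorem cont_mf (j : Jx) : Continuous (mf y2 j) := by
  rcases j with _ | ⟨_ | _, j⟩
  · unfold mf
    fun_prop
  · show Continuous fun X : Cm 2 => 1 - ((bb y2 j).1 * X 0 + (bb y2 j).2 * X 1 : ℂ)
    fun_prop
  · show Continuous fun X : Cm 2 =>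
      1 - ((bb y2 j).1 * (Complex.I * X 1) + (bb y2 j).2 * (-Complex.I * X 0) : ℂ)
    fun_prop

theorem mf_aff {a b : ℝ} (h : a + b = 1) (j : Jx) (X Y : Cm 2) :
    mf y2 j (a • X + b • Y) = a * mf y2 j X + b * mf y2 j Y := by
  obtain rfl : b = 1 - a := by linarith
  rcases j with _ | ⟨_ | _, j⟩ <;> simp [mf, lb, sd, rr] <;> ring

theorem convex_mf (j : Jx) : Convex ℝ {X | mf y2 j X = 0} := fun X hX Y hY a b _ _ h => by
  rw [mem_ofPred_eq, mf_aff h, show mf y2 j X = 0 from hX, show mf y2 j Y = 0 from hY]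
  simp

theorem nq_rr (X : Cm 2) : nq (rr X) = nq X := by simp [nq, rr, add_comm]

theorem rr_rr (X : Cm 2) : rr (rr X) = X :=
  funext (Fin.forall_fin_two.2 ⟨by simp [rr, ← mul_assoc], by simp [rr, ← mul_assoc]⟩)

theorem foot (y2 : ℝ) (j : Jx) : ∃ F, mf y2 j F = 0 ∧ nq F ≤ 1385 / 1000 := by
  have h : ∀ k : Fin 7, ∃ F, lb (bb y2 k) F = 0 ∧ nq F ≤ 1385 / 1000 := fun k => by
    fin_cases k
    iterate 4 exact ⟨P0, by simp [lb, bb, P0], by norm_num [nq, P0]⟩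
    · exact ⟨![0, -20 / 21], by norm_num [lb, bb], by norm_num [nq]⟩
    · exact ⟨![-1, 0], by norm_num [lb, bb], by norm_num [nq]⟩
    · exact ⟨![0, 10 / 9], by norm_num [lb, bb], by norm_num [nq]⟩
  rcases j with _ | ⟨_ | _, j⟩
  · exact ⟨0, by simp [mf], by norm_num [nq]⟩
  · exact h j
  · obtain ⟨F, h1, h2⟩ := h j
    exact ⟨rr F, (congrArg _ (rr_rr F)).trans h1, (nq_rr F).trans_le h2⟩

/-- two model lines do not both enter a small horoball -/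
theorem sep (he : 0 < ε) (h : ∀ j j', j ≠ j' → ∀ X, nq X = ε → mf y2 j X = 0 → mf y2 j' X ≠ 0) :
    ∃ δ > 0, ∀ o, nq o ≤ ε → ∀ j j' X X', nq X < ε → nq X' < ε → mf y2 j X = 0 →
      mf y2 j' X' = 0 → LL ε o X ≤ δ → LL ε o X' ≤ δ → j = j' := by
  let Z : Set (Cm 2 × Cm 2 × Cm 2) := Bl ε ×ˢ Bl ε ×ˢ Bl ε ∩
    ⋃ (j : Jx) (j' : Jx) (_ : j ≠ j'), {q | mf y2 j q.2.1 = 0} ∩ {q | mf y2 j' q.2.2 = 0}
  have h1 : IsCompact Z :=
    ((isCompact_Bl ε).prod ((isCompact_Bl ε).prod (isCompact_Bl ε))).inter_right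
      (isClosed_iUnion_of_finite fun j => isClosed_iUnion_of_finite fun j' =>
        isClosed_iUnion_of_finite fun _ =>
          (isClosed_eq ((cont_mf j).comp continuous_snd.fst) continuous_const).inter
            (isClosed_eq ((cont_mf j').comp continuous_snd.snd) continuous_const))
  obtain ⟨η, h2, h3⟩ := h1.exists_forall_le' (a := 0)
    (f := fun q => ‖gg ε q.1 q.2.1‖ ^ 2 + ‖gg ε q.1 q.2.2‖ ^ 2)
    (Continuous.continuousOn (by unfold gg; fun_prop)) (by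
      rintro ⟨o, X, X'⟩ ⟨⟨a1, a2, a3⟩, a4⟩
      simp only [mem_iUnion] at a4
      obtain ⟨j, j', a5, a6, a7⟩ := a4
      refine not_le.1 fun k => ?_
      have b1 : ‖gg ε o X‖ ^ 2 = 0 := by nlinarith [sq_nonneg ‖gg ε o X‖, sq_nonneg ‖gg ε o X'‖]
      have b2 : ‖gg ε o X'‖ ^ 2 = 0 := by nlinarith [sq_nonneg ‖gg ε o X‖, sq_nonneg ‖gg ε o X'‖]
      obtain ⟨rfl, c1⟩ := gg_zero (o := o) (X := X) a1 a2 (by simpa using b1)
      obtain ⟨rfl, -⟩ := gg_zero (o := X) (X := X') a1 a3 (by simpa using b2)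
      exact h j j' a5 _ c1 a6 a7)
  refine ⟨η / (2 * ε) / 2, by positivity, fun o ho j j' X X' a1 a2 a3 a4 a5 a6 => ?_⟩
  by_contra k
  have h4 := h3 (o, X, X') ⟨⟨ho, a1.le, a2.le⟩, by
    simp only [mem_iUnion]
    exact ⟨j, j', k, a3, a4⟩⟩
  rw [LL, div_le_iff₀ (sub_pos.2 a1)] at a5
  rw [LL, div_le_iff₀ (sub_pos.2 a2)] at a6
  have h5 : η / (2 * ε) / 2 * ε = η / 4 := by field_simp; norm_num
  have h6 : 0 < η / (2 * ε) / 2 := by positivity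
  nlinarith [mul_nonneg h6.le (nq_nonneg X), mul_nonneg h6.le (nq_nonneg X')]

end Vale.Agent.P300LD
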