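import Vale.Agent.P300LG.Defs2

/-!
# P300LD: a side of a cluster with a missing line
-/

open Set Complex
open Vale.Agent.P272.K (Cm)
open Vale.Agent.P300LX Vale.Agent.P300LX.Dat Vale.Agent.P300LG

noncomputable section

namespace Vale.Agent.P300LD

variable {ε y2 ρ : ℝ} {Y : Cm 2} {u : ℂ}

theorem hp_ray (h : -(tt Y * u) ∉ slitPlane) (hu : u ≠ 0) (n : ℝ × ℝ) :
    (0 < hp n Y → 0 < n.1 * u.re + n.2 * u.im) ∧ (hp n Y < 0 → n.1 * u.re + n.2 * u.im < 0) := by
  simp only [mem_slitPlane_iff, not_or, not_lt, not_not, neg_re, neg_im, neg_eq_zero, neg_nonpos,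
    mul_re, mul_im] at h
  have h0 : 0 < u.re * u.re + u.im * u.im := normSq_pos.2 hu
  have e : hp n Y * (u.re * u.re + u.im * u.im) =
      ((tt Y).re * u.re - (tt Y).im * u.im) * (n.1 * u.re + n.2 * u.im) := by
    unfold hp
    linear_combination (n.1 * u.im - n.2 * u.re) * h.2
  refine ⟨fun k => not_le.1 fun k' => ?_, fun k => not_le.1 fun k' => ?_⟩
  · nlinarith [mul_pos k h0, mul_nonneg h.1 (neg_nonneg.2 k')]
  · nlinarith [mul_pos (neg_pos.2 k) h0, mul_nonneg h.1 k']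

/-- a direction which is avoided by the shadows of the lines -/
theorem ex_dir (hP : Par ε y2 ρ) {S : Finset (Fin 7)}
    (h : 4 ∉ S ∨ 5 ∉ S ∨ 6 ∉ S ∨ 0 ∉ S ∨ (2 ∉ S ∧ 3 ∉ S)) : ∃ u : ℂ, u ≠ 0 ∧ ∀ Y, nq Y ≤ ε →
      ∀ i ∈ S, lb (bb y2 i) Y ∉ slitPlane → -(tt Y * u) ∈ slitPlane := by
  have key : ∀ a b : ℝ, a ≠ 0 → (0 ∈ S → a + b ≤ 0) → (a + b ≤ 0 ∨ 7 * a - 3 * b ≤ 0) →
      (2 ∈ S ∨ 3 ∈ S → 7 * a - 3 * b ≤ 0) → (4 ∈ S → 0 ≤ a + b ∨ 0 ≤ b) →
      (5 ∈ S → 0 ≤ a + b ∨ 0 ≤ 7 * a - 3 * b) → (6 ∈ S → 0 ≤ 7 * a - 3 * b ∨ b ≤ 0) →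
      ∃ u : ℂ, u ≠ 0 ∧ ∀ Y, nq Y ≤ ε → ∀ i ∈ S, lb (bb y2 i) Y ∉ slitPlane →
        -(tt Y * u) ∈ slitPlane := fun a b a0 c0 c1 c2 c4 c5 c6 => by
    have hu : (⟨a, b⟩ : ℂ) ≠ 0 := fun e => a0 (congrArg re e)
    refine ⟨_, hu, fun Y hY i hi k => by_contra fun k' => ?_⟩
    have e1 := hp_ray k' hu (1, 1)
    have e2 := hp_ray k' hu (7, -3)
    have e3 := hp_ray k' hu (0, 1)
    dsimp only at e1 e2 e3
    fin_cases i
    · linarith [e1.1 (h0 hP hY k).1, c0 hi]
    · rcases c1 with c | c <;> linarith [e1.1 (h1 hP hY k).1, e2.1 (h1 hP hY k).2.1]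
    · linarith [e2.1 (h2 hP hY k).1, c2 (.inl hi)]
    · linarith [e2.1 (h3 hP hY k).1, c2 (.inr hi)]
    · rcases c4 hi with c | c <;> linarith [e1.2 (h4 hP.e2 hY k).1, e3.2 (h4 hP.e2 hY k).2.1]
    · rcases c5 hi with c | c <;> linarith [e1.2 (h5 hP.e2 hY k).1, e2.2 (h5 hP.e2 hY k).2.1]
    · rcases c6 hi with c | c <;> linarith [e2.2 (h6 hP.e2 hY k).1, e3.1 (h6 hP.e2 hY k).2.1]
  rcases h with h | h | h | h | h
  · exact key (-3) (-7) (by norm_num) (by norm_num) (by norm_num) (by norm_num) (absurd · h)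
      (by norm_num) (by norm_num)
  · exact key (-1) 0 (by norm_num) (by norm_num) (by norm_num) (by norm_num) (by norm_num)
      (absurd · h) (by norm_num)
  · exact key (-1) 1 (by norm_num) (by norm_num) (by norm_num) (by norm_num) (by norm_num)
      (by norm_num) (absurd · h)
  · exact key 3 7 (by norm_num) (absurd · h) (by norm_num) (by norm_num) (by norm_num)
      (by norm_num) (by norm_num)
  · exact key 1 (-1) (by norm_num) (by norm_num) (by norm_num) (fun k => (k.elim h.1 h.2).elim)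
      (by norm_num) (by norm_num) (by norm_num)

theorem cont_sd (s : Bool) : Continuous (sd s) := by
  cases s
  · exact continuous_id
  · exact continuous_pi (Fin.forall_fin_two.2 ⟨continuous_const.mul (continuous_apply 1),
      continuous_const.mul (continuous_apply 0)⟩)

theorem cont_lb (b : ℝ × ℝ) : Continuous (lb b) := by
  unfold lb
  fun_prop

theorem cont_tt : Continuous tt := by
  unfold tt
  fun_prop

theorem part : PART := by
  intro D A y2 ρ hP K M s h
  obtain ⟨u, hu, k⟩ := ex_dir hP h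
  have c1 : ContinuousOn (fun y : D.Xh => sd s (M.X (π y))) (π ⁻¹' K) :=
    (cont_sd s).comp_continuousOn (M.cX.comp cont_π.continuousOn fun _ h => h)
  have n1 : ∀ z ∈ K, nq (sd s (M.X z)) ≤ A.ε := fun z hz => (nq_sd s _).trans_le (M.nX z hz)
  let C : Set D.Xh := {y | π y ∈ K ∧ ∃ i ∈ M.S s, lb (bb y2 i) (sd s (M.X (π y))) ∉ slitPlane}
  have o1 : ∀ y ∈ π ⁻¹' K \ C, ∀ i ∈ M.S s, lb (bb y2 i) (sd s (M.X (π y))) ∈ slitPlane :=
    fun y hy i hi => by_contra fun e => hy.2 ⟨hy.1, i, hi, e⟩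
  have o2 : ∀ y ∈ C, -(tt (sd s (M.X (π y))) * u) ∈ slitPlane :=
    fun y ⟨y1, i, hi, e⟩ => k _ (n1 _ y1) i hi e
  refine ⟨{ Cut := C
            τ := fun _ => 1
            ω := w
            σ := fun y => ∏ i ∈ M.S s, exp (log (lb (bb y2 i) (sd s (M.X (π y)))) / 2)
            L := fun y => log (-(tt (sd s (M.X (π y))) * u)) - log (-u)
            R := fun z => ∏ i ∈ M.S s, exp (log (lb (bb y2 i) (sd s (M.X z))) / 2)
            sub := fun _ h => h.1
            cl := ?_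
            cτ := continuousOn_const
            cω := cont_w.continuousOn
            cσ := continuousOn_finsetProd _ fun i hi => ((((cont_lb _).comp_continuousOn
              (c1.mono sdiff_subset)).clog fun y hy => o1 y hy i hi).div_const 2).cexp
            σ0 := fun _ _ => Finset.prod_ne_zero_iff.2 fun _ _ => exp_ne_zero _
            w_eq := fun _ _ => (one_mul _).symm
            rt_eq := fun _ _ => one_mul _
            sq := fun y hy => ?_
            ex := fun _ _ h => absurd h one_ne_zero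
            cL := ((((cont_tt.comp_continuousOn (c1.mono fun _ h => h.1)).mul
              continuousOn_const).neg).clog o2).sub continuousOn_const
            eL := fun y hy => ?_
            pos := fun y ⟨y1, i, _, e⟩ => qq_beh hP (n1 _ y1) e }⟩
  · rw [show C = ⋃ i ∈ M.S s, π ⁻¹' K ∩ (fun y : D.Xh => lb (bb y2 i) (sd s (M.X (π y)))) ⁻¹'
      slitPlaneᶜ from Set.ext fun y => ⟨fun ⟨a, i, b, c⟩ => mem_iUnion₂.2 ⟨i, b, a, c⟩, fun h =>
        let ⟨i, b, a, c⟩ := mem_iUnion₂.1 h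
        ⟨a, i, b, c⟩⟩]
    exact isClosed_biUnion_finset fun i _ =>
      ((cont_lb _).comp_continuousOn c1).preimage_isClosed_of_isClosed
        (M.cpt.isClosed.preimage cont_π) isOpen_slitPlane.isClosed_compl
  · rw [one_mul, ← Finset.prod_pow]
    exact Finset.prod_congr rfl fun i hi => by
      rw [sq, ← exp_add, add_halves, exp_log (slitPlane_ne_zero (o1 y hy i hi))]
  · rw [exp_sub, exp_log (slitPlane_ne_zero (o2 y hy)), exp_log (neg_ne_zero.2 hu), neg_div_neg_eq,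
      mul_div_cancel_right₀ _ hu]

end Vale.Agent.P300LD
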